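import Vale.Agent.P236A.Defs
import Vale.Agent.P236B.Typ2

/-!
# P236, algebra: the basic calculus of operations

* `lin` : linearity, base change (`map_lin`), ideals (`lin_mem`);
* `etaB x`, `RB x`, `actB x ξ`, `XB x δ` : the base change along a point `x : Av k →+* B`;
* `actB_actB`, `XB_XB`, `XG_XG`, `X0_X0` : composition of operations is given by `RR`;
* `map_actG`, `map_XG` : base change; `actB_P`, `XB_P` : the point `v = 0` in characteristic `p`;
* `mapM_RR`, `map_X0` : change of the ground ring.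
-/

noncomputable section

namespace Vale.Agent.P236A

open Vale.Agent.P236B MvPolynomial

section Lin

variable {B B' : Type} [CommRing B] [CommRing B']

theorem lin_monomial (ξ : (ℕ →₀ ℕ) → B) (J : ℕ →₀ ℕ) (b : B) :
    lin ξ (monomial J b) = b * ξ J := by
  have h : (monomial J b : MvPolynomial ℕ B) = b • basisMonomials ℕ B J := by
    rw [coe_basisMonomials, smul_monomial, smul_eq_mul, mul_one]
  rw [h, map_smul, lin, Module.Basis.constr_basis, smul_eq_mul]

theorem lin_one (ξ : (ℕ →₀ ℕ) → B) (J : ℕ →₀ ℕ) : lin ξ (monomial J 1) = ξ J := by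
  rw [lin_monomial, one_mul]

theorem lin_apply (ξ : (ℕ →₀ ℕ) → B) (q : MvPolynomial ℕ B) :
    lin ξ q = ∑ J ∈ q.support, coeff J q * ξ J := by
  conv_lhs => rw [q.as_sum]
  rw [map_sum]
  exact Finset.sum_congr rfl fun J _ => lin_monomial _ _ _

theorem lin_C (ξ : (ℕ →₀ ℕ) → B) (b : B) : lin ξ (C b) = b * ξ 0 := lin_monomial ξ 0 b

theorem lin_C_mul (ξ : (ℕ →₀ ℕ) → B) (b : B) (q : MvPolynomial ℕ B) :
    lin ξ (C b * q) = b * lin ξ q := by
  rw [C_mul', map_smul, smul_eq_mul]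

theorem map_lin (φ : B →+* B') (ξ : (ℕ →₀ ℕ) → B) (q : MvPolynomial ℕ B) :
    φ (lin ξ q) = lin (fun J => φ (ξ J)) (map φ q) := by
  induction q using MvPolynomial.induction_on' with
  | monomial J b => rw [map_monomial, lin_monomial, lin_monomial, map_mul]
  | add q q' h h' => rw [map_add, map_add, map_add, map_add, h, h']

theorem lin_congr {ξ ξ' : (ℕ →₀ ℕ) → B} {q : MvPolynomial ℕ B}
    (h : ∀ J, coeff J q ≠ 0 → ξ J = ξ' J) : lin ξ q = lin ξ' q := by
  rw [lin_apply, lin_apply]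
  exact Finset.sum_congr rfl fun J hJ => by rw [h J (mem_support_iff.1 hJ)]

theorem lin_add (ξ ξ' : (ℕ →₀ ℕ) → B) (q : MvPolynomial ℕ B) :
    lin (fun J => ξ J + ξ' J) q = lin ξ q + lin ξ' q := by
  simp only [lin_apply, mul_add, Finset.sum_add_distrib]

theorem lin_sub (ξ ξ' : (ℕ →₀ ℕ) → B) (q : MvPolynomial ℕ B) :
    lin (fun J => ξ J - ξ' J) q = lin ξ q - lin ξ' q := by
  simp only [lin_apply, mul_sub, Finset.sum_sub_distrib]

theorem lin_zero (q : MvPolynomial ℕ B) : lin (fun _ => (0 : B)) q = 0 := by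
  simp only [lin_apply, mul_zero, Finset.sum_const_zero]

theorem lin_mul (b : B) (ξ : (ℕ →₀ ℕ) → B) (q : MvPolynomial ℕ B) :
    lin (fun J => b * ξ J) q = b * lin ξ q := by
  simp only [lin_apply, Finset.mul_sum, mul_left_comm]

theorem lin_sum {α : Type} (s : Finset α) (ξ : α → (ℕ →₀ ℕ) → B) (q : MvPolynomial ℕ B) :
    lin (fun J => ∑ i ∈ s, ξ i J) q = ∑ i ∈ s, lin (ξ i) q := by
  simp only [lin_apply, Finset.mul_sum]
  exact Finset.sum_comm

theorem lin_eq_zero {ξ : (ℕ →₀ ℕ) → B} {q : MvPolynomial ℕ B}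
    (h : ∀ J, coeff J q ≠ 0 → ξ J = 0) : lin ξ q = 0 := (lin_congr h).trans (lin_zero q)

theorem lin_mem {ξ : (ℕ →₀ ℕ) → B} {q : MvPolynomial ℕ B} {𝔞 : Ideal B}
    (h : ∀ J, coeff J q ≠ 0 → ξ J ∈ 𝔞) : lin ξ q ∈ 𝔞 := by
  rw [lin_apply]
  exact Ideal.sum_mem _ fun J hJ => Ideal.mul_mem_left _ _ (h J (mem_support_iff.1 hJ))

theorem lin_mem_mul {ξ : (ℕ →₀ ℕ) → B} {q : MvPolynomial ℕ B} {𝔞 𝔟 : Ideal B}
    (hq : q ∈ 𝔟.map (C : B →+* MvPolynomial ℕ B)) (h : ∀ J, coeff J q ≠ 0 → ξ J ∈ 𝔞) :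
    lin ξ q ∈ 𝔟 * 𝔞 := by
  rw [lin_apply]
  exact Ideal.sum_mem _ fun J hJ =>
    Ideal.mul_mem_mul (mem_map_C_iff.1 hq J) (h J (mem_support_iff.1 hJ))

theorem lin_mem_left {ξ : (ℕ →₀ ℕ) → B} {q : MvPolynomial ℕ B} {𝔟 : Ideal B}
    (hq : q ∈ 𝔟.map (C : B →+* MvPolynomial ℕ B)) : lin ξ q ∈ 𝔟 := by
  rw [lin_apply]
  exact Ideal.sum_mem _ fun J _ => Ideal.mul_mem_right _ _ (mem_map_C_iff.1 hq J)

/-- two linear maps on polynomials agree if they agree on the monomials which occur -/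
theorem lin_ext {M : Type} [AddCommGroup M] [Module B M] {f f' : MvPolynomial ℕ B →ₗ[B] M}
    {q : MvPolynomial ℕ B} (h : ∀ J, coeff J q ≠ 0 → f (monomial J 1) = f' (monomial J 1)) :
    f q = f' q := by
  rw [q.as_sum, map_sum, map_sum]
  refine Finset.sum_congr rfl fun J hJ => ?_
  have e : (monomial J (coeff J q) : MvPolynomial ℕ B) = coeff J q • monomial J 1 := by
    rw [smul_monomial, smul_eq_mul, mul_one]
  rw [e, map_smul, map_smul, h J (mem_support_iff.1 hJ)]

end Lin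

section Base

variable (p : ℕ) [hp : Fact p.Prime] {k : Type} [CommRing k] {B B' : Type} [CommRing B]
  [CommRing B']

/-- new values of the `v_i` -/
def setV (x : Av k →+* B) (v : ℕ → B) : Av k →+* B := eval₂Hom (x.comp C) v

@[simp] theorem setV_X (x : Av k →+* B) (v : ℕ → B) (i : ℕ) : setV x v (X i) = v i := by
  simp [setV]

@[simp] theorem setV_C (x : Av k →+* B) (v : ℕ → B) (a : k) : setV x v (C a) = x (C a) := by
  simp [setV]

theorem av_ext {x y : Av k →+* B} (h : ∀ a, x (C a) = y (C a)) (h' : ∀ i, x (X i) = y (X i)) :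
    x = y := MvPolynomial.ringHom_ext h h'

theorem comp_setV (φ : B →+* B') (x : Av k →+* B) (v : ℕ → B) :
    φ.comp (setV x v) = setV (φ.comp x) fun i => φ (v i) :=
  av_ext (fun a => by simp) fun i => by simp

/-- the target of the isomorphism with coordinates `t` and source `x` -/
def tgt (x : Av k →+* B) (t : ℕ → B) : Av k →+* B := setV x (eta p (fun i => x (X i)) t)

@[simp] theorem tgt_C (x : Av k →+* B) (t : ℕ → B) (a : k) : tgt p x t (C a) = x (C a) :=
  setV_C _ _ _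

@[simp] theorem tgt_X (x : Av k →+* B) (t : ℕ → B) (i : ℕ) :
    tgt p x t (X i) = eta p (fun i => x (X i)) t i := setV_X _ _ _

theorem comp_tgt (φ : B →+* B') (x : Av k →+* B) (t : ℕ → B) :
    φ.comp (tgt p x t) = tgt p (φ.comp x) fun i => φ (t i) :=
  av_ext (fun a => by simp) fun i => by
    rw [RingHom.comp_apply, tgt_X, tgt_X, map_eta]
    rfl

theorem tgt_zero (x : Av k →+* B) : tgt p x (fun _ => 0) = x :=
  av_ext (fun a => by simp) fun i => by rw [tgt_X, eta_zero]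

theorem tgt_tgt (x : Av k →+* B) (t t' : ℕ → B) :
    tgt p (tgt p x t) t' = tgt p x (del p (fun i => x (X i)) t t') :=
  av_ext (fun a => by simp) fun i => by
    rw [tgt_X, tgt_X, eta_del]
    simp only [tgt_X]

/-- the base change of the right unit -/
def etaB (x : Av k →+* B) : Av k →+* MvPolynomial ℕ B := tgt p (C.comp x) X

/-- the base change of the coproduct -/
def RB (x : Av k →+* B) : MvPolynomial ℕ B →+* MvPolynomial ℕ (MvPolynomial ℕ B) :=
  eval₂Hom ((C : MvPolynomial ℕ B →+* _).comp C)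
    (del p (fun i => C (C (x (X i)))) (fun i => C (X i)) X)

/-- the base change of the action -/
def actB (x : Av k →+* B) (ξ : (ℕ →₀ ℕ) → Av k) (q : MvPolynomial ℕ B) : MvPolynomial ℕ B :=
  lin (fun L => etaB p x (ξ L)) (RB p x q)

theorem etaB_id : etaB p (RingHom.id (Av k)) = etaR p k :=
  av_ext (fun a => by simp [etaB, etaR]) fun i => by simp [etaB, etaR]

theorem RB_id : RB p (RingHom.id (Av k)) = RG p k := rfl

theorem actB_id (ξ : (ℕ →₀ ℕ) → Av k) (γ : Gm k) : actB p (RingHom.id (Av k)) ξ γ = actG p ξ γ := by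
  rw [actB, etaB_id, RB_id, actG]

theorem RB_C (x : Av k →+* B) (b : B) : RB p x (C b) = C (C b) := by simp [RB]

theorem RB_X (x : Av k →+* B) (i : ℕ) :
    RB p x (X i) = del p (fun i => C (C (x (X i)))) (fun i => C (X i)) X i := by simp [RB]

theorem etaB_C (x : Av k →+* B) (a : k) : etaB p x (C a) = C (x (C a)) := tgt_C p _ _ _

theorem etaB_X (x : Av k →+* B) (i : ℕ) :
    etaB p x (X i) = eta p (fun i => C (x (X i))) X i := tgt_X p _ _ _

/-- evaluation of the right unit -/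
theorem comp_etaB (φ : MvPolynomial ℕ B →+* B') (x : Av k →+* B) :
    φ.comp (etaB p x) = tgt p ((φ.comp C).comp x) fun i => φ (X i) := comp_tgt p _ _ _

theorem map_etaB (φ : B →+* B') (x : Av k →+* B) (b : Av k) :
    map φ (etaB p x b) = etaB p (φ.comp x) b := by
  refine DFunLike.congr_fun ((comp_etaB p (map φ) x).trans ?_) b
  rw [etaB]
  congr 1
  · exact RingHom.ext fun a => by simp
  · funext i
    simp

theorem map_etaR (x : Av k →+* B) (b : Av k) : map x (etaR p k b) = etaB p x b := by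
  rw [← etaB_id, map_etaB, RingHom.comp_id]

theorem constantCoeff_etaB (x : Av k →+* B) (b : Av k) : constantCoeff (etaB p x b) = x b := by
  refine DFunLike.congr_fun ((comp_etaB p constantCoeff x).trans ?_) b
  simp only [constantCoeff_X, constantCoeff_comp_C, RingHom.id_comp]
  exact tgt_zero p x

theorem map_RB (φ : B →+* B') (x : Av k →+* B) (q : MvPolynomial ℕ B) :
    map (map φ) (RB p x q) = RB p (φ.comp x) (map φ q) := by
  have h : (map (map φ)).comp (RB p x) = (RB p (φ.comp x)).comp (map φ) := by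
    refine MvPolynomial.ringHom_ext (fun b => ?_) fun i => ?_
    · simp [RB_C]
    · rw [RingHom.comp_apply, RingHom.comp_apply, map_X, RB_X, RB_X, map_del]
      simp
  exact DFunLike.congr_fun h q

theorem map_constantCoeff_RB (x : Av k →+* B) (q : MvPolynomial ℕ B) :
    map constantCoeff (RB p x q) = q := by
  have h : (map constantCoeff).comp (RB p x) = RingHom.id _ := by
    refine MvPolynomial.ringHom_ext (fun b => ?_) fun i => ?_
    · simp [RB_C]
    · rw [RingHom.comp_apply, RB_X, map_del]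
      simp only [map_C, constantCoeff_C, constantCoeff_X, map_X, map_zero, del_zero_left]
      rfl
  exact DFunLike.congr_fun h q

theorem constantCoeff_RB (x : Av k →+* B) (q : MvPolynomial ℕ B) :
    constantCoeff (RB p x q) = q := by
  have h : constantCoeff.comp (RB p x) = RingHom.id _ := by
    refine MvPolynomial.ringHom_ext (fun b => ?_) fun i => ?_
    · simp [RB_C]
    · rw [RingHom.comp_apply, RB_X, map_del]
      simp only [constantCoeff_C, constantCoeff_X, del_zero_right]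
      rfl
  exact DFunLike.congr_fun h q

theorem RB_etaB (x : Av k →+* B) (b : Av k) :
    RB p x (etaB p x b) = etaB p (etaB p x) b := by
  refine DFunLike.congr_fun ((comp_etaB p (RB p x) x).trans ?_) b
  have h1 : (C : MvPolynomial ℕ B →+* MvPolynomial ℕ (MvPolynomial ℕ B)).comp (etaB p x) =
      tgt p (C.comp (C.comp x)) fun i => C (X i) := comp_tgt p _ _ _
  rw [etaB, h1, tgt_tgt]
  congr 1
  · exact RingHom.ext fun a => by simp [RB_C]
  · funext i
    rw [RB_X]
    rfl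

theorem RB_RB (x : Av k →+* B) (q : MvPolynomial ℕ B) :
    map (RB p x) (RB p x q) = RB p (etaB p x) (RB p x q) := by
  have h : (map (RB p x)).comp (RB p x) = (RB p (etaB p x)).comp (RB p x) := by
    refine MvPolynomial.ringHom_ext (fun b => ?_) fun i => ?_
    · simp [RB_C]
    · rw [RingHom.comp_apply, RingHom.comp_apply, RB_X]
      refine (map_del (A := MvPolynomial ℕ (MvPolynomial ℕ B))
        (B := MvPolynomial ℕ (MvPolynomial ℕ (MvPolynomial ℕ B))) p (map (RB p x)) _ _ _ _).trans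
        (Eq.trans ?_ (map_del p (RB p (etaB p x)) _ _ _ _).symm)
      have e1 := map_del (A := MvPolynomial ℕ (MvPolynomial ℕ B))
        (B := MvPolynomial ℕ (MvPolynomial ℕ (MvPolynomial ℕ B))) p C
      have e2 := map_eta (A := MvPolynomial ℕ B) (B := MvPolynomial ℕ (MvPolynomial ℕ B)) p C
      have e3 := map_eta (A := MvPolynomial ℕ (MvPolynomial ℕ B))
        (B := MvPolynomial ℕ (MvPolynomial ℕ (MvPolynomial ℕ B))) p C
      simp only [map_C, map_X, RB_C, RB_X, etaB_X, e1, e2, e3]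
      exact congrFun (del_assoc p _ _ _ _) i
  exact DFunLike.congr_fun h q

theorem actB_add (x : Av k →+* B) (ξ : (ℕ →₀ ℕ) → Av k) (q q' : MvPolynomial ℕ B) :
    actB p x ξ (q + q') = actB p x ξ q + actB p x ξ q' := by
  rw [actB, map_add, map_add, actB, actB]

theorem actB_C_mul (x : Av k →+* B) (ξ : (ℕ →₀ ℕ) → Av k) (b : B) (q : MvPolynomial ℕ B) :
    actB p x ξ (C b * q) = C b * actB p x ξ q := by
  rw [actB, map_mul, RB_C, lin_C_mul, actB]

/-- the action as a linear map -/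
def actL (x : Av k →+* B) (ξ : (ℕ →₀ ℕ) → Av k) : MvPolynomial ℕ B →ₗ[B] MvPolynomial ℕ B where
  toFun := actB p x ξ
  map_add' := actB_add p x ξ
  map_smul' b q := by rw [← C_mul', actB_C_mul, C_mul', RingHom.id_apply]

theorem actL_apply (x : Av k →+* B) (ξ : (ℕ →₀ ℕ) → Av k) (q : MvPolynomial ℕ B) :
    actL p x ξ q = actB p x ξ q := rfl

theorem actB_zero (x : Av k →+* B) (ξ : (ℕ →₀ ℕ) → Av k) : actB p x ξ 0 = 0 :=
  map_zero (actL p x ξ)

theorem actB_C (x : Av k →+* B) (ξ : (ℕ →₀ ℕ) → Av k) (b : B) :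
    actB p x ξ (C b) = C b * etaB p x (ξ 0) := by
  rw [actB, RB_C, lin_C]

theorem actB_zero_left (x : Av k →+* B) (q : MvPolynomial ℕ B) : actB p x (fun _ => 0) q = 0 := by
  simp only [actB, map_zero, lin_zero]

theorem actB_add_left (x : Av k →+* B) (ξ ξ' : (ℕ →₀ ℕ) → Av k) (q : MvPolynomial ℕ B) :
    actB p x (fun J => ξ J + ξ' J) q = actB p x ξ q + actB p x ξ' q := by
  simp only [actB, map_add, lin_add]

theorem actB_sub_left (x : Av k →+* B) (ξ ξ' : (ℕ →₀ ℕ) → Av k) (q : MvPolynomial ℕ B) :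
    actB p x (fun J => ξ J - ξ' J) q = actB p x ξ q - actB p x ξ' q := by
  simp only [actB, map_sub, lin_sub]

theorem actB_sum_left {α : Type} (s : Finset α) (x : Av k →+* B) (ξ : α → (ℕ →₀ ℕ) → Av k)
    (q : MvPolynomial ℕ B) :
    actB p x (fun J => ∑ i ∈ s, ξ i J) q = ∑ i ∈ s, actB p x (ξ i) q := by
  simp only [actB, map_sum, lin_sum]

/-- **base change** -/
theorem map_actB (φ : B →+* B') (x : Av k →+* B) (ξ : (ℕ →₀ ℕ) → Av k) (q : MvPolynomial ℕ B) :
    map φ (actB p x ξ q) = actB p (φ.comp x) ξ (map φ q) := by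
  rw [actB, map_lin, map_RB, actB]
  simp only [map_etaB]

theorem map_actG (x : Av k →+* B) (ξ : (ℕ →₀ ℕ) → Av k) (γ : Gm k) :
    map x (actG p ξ γ) = actB p x ξ (map x γ) := by
  rw [← actB_id, map_actB, RingHom.comp_id]

theorem actB_monomial (x : Av k →+* B) (ξ : (ℕ →₀ ℕ) → Av k) (J : ℕ →₀ ℕ) :
    actB p x ξ (monomial J 1) = map x (actG p ξ (monomial J 1)) := by
  rw [map_actG, map_monomial, x.map_one]

theorem constantCoeff_actB (x : Av k →+* B) (ξ : (ℕ →₀ ℕ) → Av k) (q : MvPolynomial ℕ B) :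
    constantCoeff (actB p x ξ q) = lin (fun J => x (ξ J)) q := by
  rw [actB, map_lin, map_constantCoeff_RB]
  simp only [constantCoeff_etaB]

theorem constantCoeff_actG (ξ : (ℕ →₀ ℕ) → Av k) (γ : Gm k) :
    constantCoeff (actG p ξ γ) = lin ξ γ := by
  rw [← actB_id, constantCoeff_actB]
  rfl

/-- the composition of two operations -/
def cmp (ξ' ξ : (ℕ →₀ ℕ) → Av k) : (ℕ →₀ ℕ) → Av k :=
  fun J => lin ξ' (actG p ξ (monomial J 1))

theorem lin_actB (x : Av k →+* B) (ξ' ξ : (ℕ →₀ ℕ) → Av k) (q : MvPolynomial ℕ B) :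
    lin (fun J => x (ξ' J)) (actB p x ξ q) = lin (fun J => x (cmp p ξ' ξ J)) q :=
  lin_ext (f := (lin fun J => x (ξ' J)) ∘ₗ actL p x ξ) fun J _ => by
    rw [LinearMap.comp_apply, actL_apply, actB_monomial, ← map_lin, lin_one, cmp]

theorem lin_actG (ξ' ξ : (ℕ →₀ ℕ) → Av k) (γ : Gm k) :
    lin ξ' (actG p ξ γ) = lin (cmp p ξ' ξ) γ := by
  rw [← actB_id]
  exact lin_actB p (RingHom.id _) ξ' ξ γ

theorem RB_actB (x : Av k →+* B) (ξ : (ℕ →₀ ℕ) → Av k) (q : MvPolynomial ℕ B) :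
    RB p x (actB p x ξ q) = actB p (etaB p x) ξ (RB p x q) := by
  rw [actB, map_lin, RB_RB, actB]
  simp only [RB_etaB]

/-- **associativity** -/
theorem actB_actB (x : Av k →+* B) (ξ' ξ : (ℕ →₀ ℕ) → Av k) (q : MvPolynomial ℕ B) :
    actB p x ξ' (actB p x ξ q) = actB p x (cmp p ξ' ξ) q := by
  rw [actB, RB_actB, lin_actB, actB]

theorem actG_actG (ξ' ξ : (ℕ →₀ ℕ) → Av k) (γ : Gm k) :
    actG p ξ' (actG p ξ γ) = actG p (cmp p ξ' ξ) γ := by
  rw [← actB_id, ← actB_id, ← actB_id, actB_actB]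

theorem actB_etaB (x : Av k →+* B) (ξ : (ℕ →₀ ℕ) → Av k) (b : Av k) :
    actB p x ξ (etaB p x b) = etaB p x (act0 p ξ b) := by
  rw [actB, RB_etaB, act0, map_lin, map_etaR]

theorem actG_etaR (ξ : (ℕ →₀ ℕ) → Av k) (b : Av k) :
    actG p ξ (etaR p k b) = etaR p k (act0 p ξ b) := by
  rw [← actB_id, ← etaB_id, actB_etaB]

theorem actG_C_mul (ξ : (ℕ →₀ ℕ) → Av k) (a : Av k) (γ : Gm k) :
    actG p ξ (C a * γ) = C a * actG p ξ γ := by
  rw [← actB_id, ← actB_id, actB_C_mul]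

theorem act0_act0 (ξ' ξ : (ℕ →₀ ℕ) → Av k) (b : Av k) :
    act0 p ξ' (act0 p ξ b) = act0 p (cmp p ξ' ξ) b := by
  rw [act0, ← actG_etaR, lin_actG, act0]

theorem act0_add (ξ : (ℕ →₀ ℕ) → Av k) (b b' : Av k) :
    act0 p ξ (b + b') = act0 p ξ b + act0 p ξ b' := by
  rw [act0, map_add, map_add, act0, act0]

theorem act0_zero (ξ : (ℕ →₀ ℕ) → Av k) : act0 p ξ 0 = 0 := by rw [act0, map_zero, map_zero]

theorem act0_C_mul (ξ : (ℕ →₀ ℕ) → Av k) (a : k) (b : Av k) :
    act0 p ξ (C a * b) = C a * act0 p ξ b := by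
  rw [act0, map_mul, ← etaB_id, etaB_C, lin_C_mul, etaB_id, act0, RingHom.id_apply]

theorem act0_one (ξ : (ℕ →₀ ℕ) → Av k) : act0 p ξ 1 = ξ 0 := by
  rw [act0, map_one]
  exact lin_one ξ 0

/-! ### the point `v = 0` in characteristic `p` -/

theorem etaB_P {x : Av k →+* B} (hB : (p : B) = 0) (hx : ∀ i, x (X i) = 0) (b : Av k) :
    etaB p x b = C (x b) := by
  have hB' : (p : MvPolynomial ℕ B) = 0 := by rw [← map_natCast C, hB, map_zero]
  have h : etaB p x = C.comp x := av_ext (fun a => etaB_C p x a) fun i => by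
    rw [etaB_X, RingHom.comp_apply]
    simp only [hx, map_zero, eta_v0 p hB']
  exact DFunLike.congr_fun h b

theorem RB_P {x : Av k →+* ZMod p} (hx : ∀ i, x (X i) = 0) : RB p x = RP p := by
  have hB' : (p : MvPolynomial ℕ (PP p)) = 0 := by
    rw [← map_natCast C, ← map_natCast C, ZMod.natCast_self, map_zero, map_zero]
  refine MvPolynomial.ringHom_ext (fun b => ?_) fun i => ?_
  · simp [RB_C, RP]
  · rw [RB_X]
    simp only [hx, map_zero]
    rw [del_v0 p hB', comp_range]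
    simp [RP]

theorem actB_P {x : Av k →+* ZMod p} (hx : ∀ i, x (X i) = 0) (ξ : (ℕ →₀ ℕ) → Av k) (q : PP p) :
    actB p x ξ q = actP p (fun J => x (ξ J)) q := by
  rw [actB, RB_P p hx, actP]
  simp only [etaB_P p (ZMod.natCast_self p) hx]

/-! ### change of the ground ring -/

variable {k' : Type} [CommRing k']

theorem tgt_comp_map (θ : k →+* k') (x : Av k' →+* B) (t : ℕ → B) :
    (tgt p x t).comp (map θ) = tgt p (x.comp (map θ)) t :=
  av_ext (fun a => by simp) fun i => by simp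

theorem etaB_map (θ : k →+* k') (x : Av k' →+* B) (b : Av k) :
    etaB p x (map θ b) = etaB p (x.comp (map θ)) b :=
  DFunLike.congr_fun (tgt_comp_map p θ (C.comp x) X) b

theorem RB_comp_map (θ : k →+* k') (x : Av k' →+* B) : RB p (x.comp (map θ)) = RB p x := by
  simp only [RB, RingHom.comp_apply, map_X]

theorem actB_map (θ : k →+* k') (x : Av k' →+* B) (ξ : (ℕ →₀ ℕ) → Av k) (q : MvPolynomial ℕ B) :
    actB p x (fun J => map θ (ξ J)) q = actB p (x.comp (map θ)) ξ q := by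
  simp only [actB, etaB_map, RB_comp_map]

theorem map_map_etaR (θ : k →+* k') (b : Av k) :
    map (map θ) (etaR p k b) = etaR p k' (map θ b) := by
  rw [map_etaR, ← etaB_id, etaB_map, RingHom.id_comp]

theorem map_map_actG (θ : k →+* k') (ξ : (ℕ →₀ ℕ) → Av k) (γ : Gm k) :
    map (map θ) (actG p ξ γ) = actG p (fun J => map θ (ξ J)) (map (map θ) γ) := by
  rw [map_actG, ← actB_id, actB_map, RingHom.id_comp]

theorem map_act0 (θ : k →+* k') (ξ : (ℕ →₀ ℕ) → Av k) (b : Av k) :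
    map θ (act0 p ξ b) = act0 p (fun J => map θ (ξ J)) (map θ b) := by
  rw [act0, map_lin, map_map_etaR, act0]

theorem map_cmp (θ : k →+* k') (ξ' ξ : (ℕ →₀ ℕ) → Av k) (J : ℕ →₀ ℕ) :
    map θ (cmp p ξ' ξ J) = cmp p (fun J => map θ (ξ' J)) (fun J => map θ (ξ J)) J := by
  rw [cmp, map_lin, map_map_actG, map_monomial, map_one, cmp]

/-! ### matrices -/

variable {ι : Type} [Fintype ι]

/-- the base change of the differential of the resolution -/
def XB (x : Av k →+* B) (δ : Mat ι (Av k)) : (ι → MvPolynomial ℕ B) →ₗ[B] (ι → MvPolynomial ℕ B) :=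
  LinearMap.pi fun g' => ∑ g, actL p x (δ g g') ∘ₗ LinearMap.proj g

theorem XB_apply (x : Av k →+* B) (δ : Mat ι (Av k)) (y : ι → MvPolynomial ℕ B) (g' : ι) :
    XB p x δ y g' = ∑ g, actB p x (δ g g') (y g) := by
  simp [XB, LinearMap.sum_apply, actL_apply]

theorem XB_id (δ : Mat ι (Av k)) (y : ι → Gm k) : XB p (RingHom.id _) δ y = XG p δ y := by
  funext g'
  simp only [XB_apply, actB_id, XG]

theorem XB_P {x : Av k →+* ZMod p} (hx : ∀ i, x (X i) = 0) (δ : Mat ι (Av k)) (y : ι → PP p) :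
    XB p x δ y = XP p (fun g g' J => x (δ g g' J)) y := by
  funext g'
  simp only [XB_apply, actB_P p hx, XP]

theorem map_XB (φ : B →+* B') (x : Av k →+* B) (δ : Mat ι (Av k)) (y : ι → MvPolynomial ℕ B) :
    (fun g => map φ (XB p x δ y g)) = XB p (φ.comp x) δ fun g => map φ (y g) := by
  funext g'
  simp only [XB_apply, map_sum, map_actB]

theorem map_XG (x : Av k →+* B) (δ : Mat ι (Av k)) (y : ι → Gm k) :
    (fun g => map x (XG p δ y g)) = XB p x δ fun g => map x (y g) := by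
  rw [← XB_id, map_XB, RingHom.comp_id]

/-- reduction of the resolution to the dual reduced powers -/
theorem map_XG_P (red : k →+* ZMod p) (δ : Mat ι (Av k)) (y : ι → Gm k) :
    (fun g => map (red.comp constantCoeff) (XG p δ y g)) =
      XP p (bar p red δ) fun g => map (red.comp constantCoeff) (y g) := by
  rw [map_XG, XB_P p fun i => by simp]
  rfl

theorem RR_eq (δ' δ : Mat ι (Av k)) (g g'' : ι) :
    RR p δ' δ g g'' = fun J => ∑ g', cmp p (δ' g' g'') (δ g g') J := rfl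

theorem XB_XB (x : Av k →+* B) (δ' δ : Mat ι (Av k)) (y : ι → MvPolynomial ℕ B) :
    XB p x δ' (XB p x δ y) = XB p x (RR p δ' δ) y := by
  funext g''
  simp only [XB_apply, RR_eq, actB_sum_left]
  rw [Finset.sum_comm]
  refine Finset.sum_congr rfl fun g' _ => ?_
  rw [← actL_apply, map_sum]
  simp only [actL_apply, actB_actB]

/-- **the composition of two differentials** -/
theorem XG_XG (δ' δ : Mat ι (Av k)) (y : ι → Gm k) :
    XG p δ' (XG p δ y) = XG p (RR p δ' δ) y := by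
  rw [← XB_id, ← XB_id, ← XB_id, XB_XB]

theorem XG_etaR (δ : Mat ι (Av k)) (c : ι → Av k) :
    XG p δ (fun g => etaR p k (c g)) = fun g => etaR p k (X0 p δ c g) := by
  funext g'
  simp only [XG, X0, map_sum, actG_etaR]

theorem constantCoeff_etaR (b : Av k) : constantCoeff (etaR p k b) = b := by
  rw [← etaB_id, constantCoeff_etaB, RingHom.id_apply]

theorem X0_X0 (δ' δ : Mat ι (Av k)) (c : ι → Av k) :
    X0 p δ' (X0 p δ c) = X0 p (RR p δ' δ) c := by
  funext g
  have h := congrFun (XG_XG p δ' δ fun g => etaR p k (c g)) g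
  rw [XG_etaR, XG_etaR, XG_etaR] at h
  simpa only [constantCoeff_etaR] using congrArg constantCoeff h

theorem constantCoeff_XG (δ : Mat ι (Av k)) (y : ι → Gm k) (g' : ι) :
    constantCoeff (XG p δ y g') = ∑ g, lin (δ g g') (y g) := by
  simp only [XG, map_sum, constantCoeff_actG]

/-- the small differential as an additive map -/
def X0H (δ : Mat ι (Av k)) : (ι → Av k) →+ (ι → Av k) :=
  AddMonoidHom.mk' (X0 p δ) fun c c' => by
    funext g'
    simp only [X0, Pi.add_apply, act0_add, Finset.sum_add_distrib]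

theorem X0H_apply (δ : Mat ι (Av k)) (c : ι → Av k) : X0H p δ c = X0 p δ c := rfl

theorem mapM_RR (θ : k →+* k') (δ' δ : Mat ι (Av k)) :
    mapM θ (RR p δ' δ) = RR p (mapM θ δ') (mapM θ δ) := by
  funext g g'' J
  simp only [mapM, RR_eq, map_sum, map_cmp]
  rfl

theorem map_X0 (θ : k →+* k') (δ : Mat ι (Av k)) (c : ι → Av k) :
    (fun g => map θ (X0 p δ c g)) = X0 p (mapM θ δ) fun g => map θ (c g) := by
  funext g'
  simp only [X0, map_sum, map_act0]
  rfl

theorem XB_sub_left (x : Av k →+* B) (δ δ' : Mat ι (Av k)) (y : ι → MvPolynomial ℕ B) :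
    XB p x (fun g g' J => δ g g' J - δ' g g' J) y = XB p x δ y - XB p x δ' y := by
  funext g'
  simp only [XB_apply, Pi.sub_apply, actB_sub_left, Finset.sum_sub_distrib]

theorem XB_add_left (x : Av k →+* B) (δ δ' : Mat ι (Av k)) (y : ι → MvPolynomial ℕ B) :
    XB p x (fun g g' J => δ g g' J + δ' g g' J) y = XB p x δ y + XB p x δ' y := by
  funext g'
  simp only [XB_apply, Pi.add_apply, actB_add_left, Finset.sum_add_distrib]

theorem XB_single [DecidableEq ι] (x : Av k →+* B) (δ : Mat ι (Av k)) (g : ι)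
    (q : MvPolynomial ℕ B) : XB p x δ (Pi.single g q) = fun g' => actB p x (δ g g') q := by
  funext g'
  rw [XB_apply, Finset.sum_eq_single g, Pi.single_eq_same]
  · intro g₁ _ h
    rw [Pi.single_eq_of_ne h, actB_zero]
  · intro h
    exact absurd (Finset.mem_univ g) h

/-- invariant ideals: operations with values in `𝔞` -/
theorem actG_mem {𝔞 : Ideal (Av k)} (h𝔞 : Inv p 𝔞) {ξ : (ℕ →₀ ℕ) → Av k} {γ : Gm k}
    (h : ∀ L, coeff L (RG p k γ) ≠ 0 → ξ L ∈ 𝔞) : actG p ξ γ ∈ 𝔞.map (C : Av k →+* Gm k) :=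
  lin_mem fun L hL => h𝔞 _ (h L hL)

theorem act0_mem {𝔞 : Ideal (Av k)} {ξ : (ℕ →₀ ℕ) → Av k} {b : Av k}
    (h : ∀ L, coeff L (etaR p k b) ≠ 0 → ξ L ∈ 𝔞) : act0 p ξ b ∈ 𝔞 := lin_mem h

theorem act0_mem_inv {𝔟 : Ideal (Av k)} (h𝔟 : Inv p 𝔟) (ξ : (ℕ →₀ ℕ) → Av k) {b : Av k}
    (hb : b ∈ 𝔟) : act0 p ξ b ∈ 𝔟 := lin_mem_left (h𝔟 b hb)

theorem act0_mem_mul {𝔞 𝔟 : Ideal (Av k)} (h𝔟 : Inv p 𝔟) {ξ : (ℕ →₀ ℕ) → Av k} {b : Av k}
    (hb : b ∈ 𝔟) (h : ∀ L, coeff L (etaR p k b) ≠ 0 → ξ L ∈ 𝔞) : act0 p ξ b ∈ 𝔟 * 𝔞 :=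
  lin_mem_mul (h𝔟 b hb) h

end Base

end Vale.Agent.P236A
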