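import Vale.Agent.P236B.Typ

/-!
# P236, algebra definitions: operations on `k[v] ⊗ V`

`Av k = k[v_1, …]`, `Gm k = Av k [t_1, …]` (the Hopf algebroid of typical laws over `k`).
An operation is a family `ξ J ∈ Av k` (the values of an `Av k`-linear functional on the monomials
`t ^ J`).  `δ g g' J` is the coefficient of the generator `g'` in the value on `t ^ J g`.

* `X0 δ` : the differential of the small complex `C = ι → Av k`, `X (b g) = δ (η_R (b) g)`;
* `XG δ` : the differential of the resolution `ι → Gm k`;  `RR δ' δ g g'' J = δ' (XG δ (t ^ J g))`;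
* `XP ξ` : the resolution over the dual reduced powers `PP p = 𝔽_p[t_1, …]`.

Weights are the weights of `Cob Laz` (half of the topological degree): `|v_i| = |t_i| = p ^ i - 1`.
-/

noncomputable section

namespace Vale.Agent.P236A

open Vale.Agent.P236B MvPolynomial

/-- the ring `k[v_1, v_2, …]`, `X i = v_{i+1}` -/
abbrev Av (k : Type) [CommRing k] : Type := MvPolynomial ℕ k

/-- the ring `k[v][t_1, t_2, …]`, `X i = t_{i+1}` -/
abbrev Gm (k : Type) [CommRing k] : Type := MvPolynomial ℕ (Av k)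

/-- the dual reduced powers `𝔽_p[t_1, t_2, …]` -/
abbrev PP (p : ℕ) : Type := MvPolynomial ℕ (ZMod p)

/-- the weight of `v_{i+1}` and `t_{i+1}` -/
def wz (p i : ℕ) : ℤ := (p : ℤ) ^ (i + 1) - 1

/-- the weight of a monomial -/
def mz (p : ℕ) (J : ℕ →₀ ℕ) : ℤ := Finsupp.weight (wz p) J

/-- the linear functional with the values `ξ J` on the monomials -/
def lin {B : Type} [CommRing B] (ξ : (ℕ →₀ ℕ) → B) : MvPolynomial ℕ B →ₗ[B] B :=
  (basisMonomials ℕ B).constr B ξ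

/-- Generators: cohomological degree, weight, and the unit. -/
structure Gens (ι : Type) where
  /-- the cohomological degree -/
  deg : ι → ℕ
  /-- the weight -/
  wt : ι → ℕ
  /-- the generator in degree zero -/
  g0 : ι
  deg_g0 : deg g0 = 0
  wt_g0 : wt g0 = 0

/-- matrices of operations -/
abbrev Mat (ι B : Type) : Type := ι → ι → (ℕ →₀ ℕ) → B

variable (p : ℕ) [hp : Fact p.Prime] (k : Type) [CommRing k]

/-- the right unit -/
def etaR : Av k →+* Gm k :=
  eval₂Hom ((C : Av k →+* Gm k).comp C) (eta p (fun i => (C (X i) : Gm k)) X)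

/-- the coproduct; the new variables are the right hand factor -/
def RG : Gm k →+* MvPolynomial ℕ (Gm k) :=
  eval₂Hom ((C : Gm k →+* MvPolynomial ℕ (Gm k)).comp C)
    (del p (fun i => (C (C (X i)) : MvPolynomial ℕ (Gm k))) (fun i => C (X i)) X)

/-- the coproduct of the dual reduced powers, `t_n ↦ ∑ t_j ⊗ t_{n-j} ^ (p ^ j)` -/
def RP : PP p →+* MvPolynomial ℕ (PP p) :=
  eval₂Hom ((C : PP p →+* MvPolynomial ℕ (PP p)).comp C) fun n =>
    ∑ j ∈ Finset.range (n + 2),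
      hat (fun i => (C (X i) : MvPolynomial ℕ (PP p))) j * hat X (n + 1 - j) ^ p ^ j

variable {k}

/-- the action of an operation on `Av k` -/
def act0 (ξ : (ℕ →₀ ℕ) → Av k) (b : Av k) : Av k := lin ξ (etaR p k b)

/-- the action of an operation on `Gm k` -/
def actG (ξ : (ℕ →₀ ℕ) → Av k) (γ : Gm k) : Gm k := lin (fun L => etaR p k (ξ L)) (RG p k γ)

/-- the action of an operation on `PP p` -/
def actP (ξ : (ℕ →₀ ℕ) → ZMod p) (q : PP p) : PP p := lin (fun L => C (ξ L)) (RP p q)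

variable {ι : Type} [Fintype ι]

/-- the differential of the small complex -/
def X0 (δ : Mat ι (Av k)) (c : ι → Av k) : ι → Av k := fun g' => ∑ g, act0 p (δ g g') (c g)

/-- the differential of the resolution -/
def XG (δ : Mat ι (Av k)) (y : ι → Gm k) : ι → Gm k := fun g' => ∑ g, actG p (δ g g') (y g)

/-- the differential of the resolution over the dual reduced powers -/
def XP (ξ : Mat ι (ZMod p)) (y : ι → PP p) : ι → PP p := fun g' => ∑ g, actP p (ξ g g') (y g)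

/-- the matrix of the composition `δ' ∘ δ` -/
def RR (δ' δ : Mat ι (Av k)) : Mat ι (Av k) :=
  fun g g'' J => ∑ g', lin (δ' g' g'') (actG p (δ g g') (monomial J 1))

/-- reduction modulo `(p, v_1, v_2, …)` -/
def bar (red : k →+* ZMod p) (δ : Mat ι (Av k)) : Mat ι (ZMod p) :=
  fun g g' J => red (constantCoeff (δ g g' J))

/-- change of the ground ring -/
def mapM {k' : Type} [CommRing k'] (θ : k →+* k') (δ : Mat ι (Av k)) : Mat ι (Av k') :=
  fun g g' J => MvPolynomial.map θ (δ g g' J)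

variable (Γ : Gens ι)

/-- homogeneous elements of `ι → k[variables]` of degree `s` and weight `w` -/
def Hom (s : ℕ) (w : ℤ) (c : ι → MvPolynomial ℕ k) : Prop :=
  ∀ g, IsWeightedHomogeneous (wz p) (c g) (w - Γ.wt g) ∧ (Γ.deg g ≠ s → c g = 0)

/-- `δ` has degree one, preserves the weights and kills the unit. -/
structure HomD (δ : Mat ι (Av k)) : Prop where
  wt : ∀ g g' J, IsWeightedHomogeneous (wz p) (δ g g' J) (mz p J + Γ.wt g - Γ.wt g')
  deg : ∀ g g' J, Γ.deg g' ≠ Γ.deg g + 1 → δ g g' J = 0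
  unit : ∀ g', δ Γ.g0 g' 0 = 0

/-- The resolution over the dual reduced powers is exact in degrees `≤ S` and weights `≤ N`. -/
structure ExactP [DecidableEq ι] (ξ : Mat ι (ZMod p)) (S : ℕ) (N : ℤ) : Prop where
  zero : ∀ (w : ℤ) (y : ι → PP p), w ≤ N → Hom p Γ 0 w y → XP p ξ y = 0 →
    ∃ c : ZMod p, y = Pi.single Γ.g0 (C c)
  succ : ∀ (s : ℕ) (w : ℤ) (y : ι → PP p), s + 1 ≤ S → w ≤ N → Hom p Γ (s + 1) w y →
    XP p ξ y = 0 → ∃ y', Hom p Γ s w y' ∧ XP p ξ y' = y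

/-- `δ ∘ δ` vanishes modulo `𝔞` in weights `≤ N`. -/
def SqIn (δ : Mat ι (Av k)) (𝔞 : ℕ → Ideal (Av k)) (N : ℤ) : Prop :=
  ∀ g g'' J, mz p J + Γ.wt g ≤ N → RR p δ δ g g'' J ∈ 𝔞 (Γ.deg g + 1)

/-- `δ ∘ δ = 0` in weights `≤ N`. -/
def SqZero (δ : Mat ι (Av k)) (N : ℤ) : Prop :=
  ∀ g g'' J, mz p J + Γ.wt g ≤ N → RR p δ δ g g'' J = 0

/-- invariant ideals -/
def Inv (𝔞 : Ideal (Av k)) : Prop := ∀ a ∈ 𝔞, etaR p k a ∈ 𝔞.map (C : Av k →+* Gm k)

/-- the basis vector `t ^ J g` -/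
def bv [DecidableEq ι] (g : ι) (J : ℕ →₀ ℕ) : ι → MvPolynomial ℕ k := Pi.single g (monomial J 1)

/-- An `Av k`-linear contraction of the resolution in degrees `≤ S` and weights `≤ N`. -/
structure Contr [DecidableEq ι] (δ : Mat ι (Av k)) (S : ℕ) (N : ℤ) where
  /-- the homotopy -/
  H : (ι → Gm k) →ₗ[Av k] (ι → Gm k)
  /-- the projection to the unit -/
  c : (ι → Gm k) →ₗ[Av k] Av k
  H_wt : ∀ g J g' J', IsWeightedHomogeneous (wz p) (coeff J' (H (bv g J) g'))
    (mz p J + Γ.wt g - mz p J' - Γ.wt g')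
  H_deg : ∀ g J g', Γ.deg g' + 1 ≠ Γ.deg g → H (bv g J) g' = 0
  c_wt : ∀ g J, IsWeightedHomogeneous (wz p) (c (bv g J)) (mz p J + Γ.wt g)
  c_deg : ∀ g J, Γ.deg g ≠ 0 → c (bv g J) = 0
  eq : ∀ g J, Γ.deg g ≤ S → mz p J + Γ.wt g ≤ N →
    XG p δ (H (bv g J)) + H (XG p δ (bv g J)) + Pi.single Γ.g0 (C (c (bv g J))) = bv g J

/-- **Contraction** (block OP): statement. -/
def ContrStmt : Prop :=
  ∀ (ι : Type) [Fintype ι] [DecidableEq ι] (Γ : Gens ι) (m b : ℕ) (_ : m = p ^ (b + 1))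
    (red : ZMod m →+* ZMod p) (δ : Mat ι (Av (ZMod m))) (S : ℕ) (N : ℤ), HomD p Γ δ →
    SqZero p Γ δ N → ExactP p Γ (bar p red δ) S N → Nonempty (Contr p Γ δ S N)

/-- **Exact lift** (block OP): statement. -/
def LiftStmt : Prop :=
  ∀ (ι : Type) [Fintype ι] [DecidableEq ι] (Γ : Gens ι) (m b : ℕ) (_ : m = p ^ (b + 1))
    (red : ZMod m →+* ZMod p) (δ : Mat ι (Av (ZMod m))) (𝔞 : ℕ → Ideal (Av (ZMod m))) (S : ℕ)
    (N : ℤ), HomD p Γ δ → (∀ g, Γ.deg g ≤ S + 1) → Monotone 𝔞 → (∀ s, Inv p (𝔞 s)) →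
    (∀ s, ∀ a ∈ 𝔞 s, red (constantCoeff a) = 0) → SqIn p Γ δ 𝔞 N →
    ExactP p Γ (bar p red δ) S N →
    ∃ δ' : Mat ι (Av (ZMod m)), HomD p Γ δ' ∧ SqZero p Γ δ' N ∧
      ∀ g g' J, δ' g g' J - δ g g' J ∈ 𝔞 (Γ.deg g)

end Vale.Agent.P236A
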