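import Vale.Agent.P236A.Basic
import Vale.Agent.P257.H93.Wt

/-!
# P236, algebra: weights

* `Grd B` : a family of additive subgroups `G w` with `1 ∈ G 0`, `G v * G w ⊆ G (v + w)`;
  `Grd.poly`, `Grd.triv`, `Grd.Map`, `Grd.NonNeg`;
* `eta_mem`, `del_mem`, `actB_mem`, `HomB.XB`, `Hom.X0`, `Hom.XP` : everything is homogeneous;
* `XB_congr`, `XB_XB_zero` : only the entries of weight `≤ N` matter.
-/

noncomputable section

namespace Vale.Agent.P236A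

open Vale.Agent.P236B MvPolynomial

/-- gradings (no decomposition is required) -/
structure Grd (B : Type) [CommRing B] where
  /-- the elements of weight `w` -/
  G : ℤ → AddSubgroup B
  one_mem : 1 ∈ G 0
  mul_mem : ∀ {v w : ℤ} {a b : B}, a ∈ G v → b ∈ G w → a * b ∈ G (v + w)

namespace Grd

variable {B B' B'' : Type} [CommRing B] [CommRing B'] [CommRing B''] {τ : Type}

theorem cast (𝒢 : Grd B) {v w : ℤ} {a : B} (h : a ∈ 𝒢.G v) (e : v = w) : a ∈ 𝒢.G w := e ▸ h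

theorem pow_mem (𝒢 : Grd B) {w : ℤ} {a : B} (h : a ∈ 𝒢.G w) (n : ℕ) : a ^ n ∈ 𝒢.G (n • w) := by
  induction n with
  | zero => simpa using 𝒢.one_mem
  | succ n ih =>
    rw [pow_succ, succ_nsmul]
    exact 𝒢.mul_mem ih h

theorem prod_mem (𝒢 : Grd B) {α : Type} (s : Finset α) {w : α → ℤ} {a : α → B}
    (h : ∀ i ∈ s, a i ∈ 𝒢.G (w i)) : ∏ i ∈ s, a i ∈ 𝒢.G (∑ i ∈ s, w i) := by
  classical
  induction s using Finset.induction_on with
  | empty => simpa using 𝒢.one_mem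
  | insert i s hi ih =>
    rw [Finset.prod_insert hi, Finset.sum_insert hi]
    exact 𝒢.mul_mem (h i (Finset.mem_insert_self _ _))
      (ih fun j hj => h j (Finset.mem_insert_of_mem hj))

theorem intCast_mem (𝒢 : Grd B) (n : ℤ) : (n : B) ∈ 𝒢.G 0 := by
  rw [← zsmul_one]
  exact AddSubgroup.zsmul_mem _ 𝒢.one_mem n

/-- everything has weight zero -/
def triv (k : Type) [CommRing k] : Grd k where
  G w := { carrier := {a | w ≠ 0 → a = 0}
           add_mem' := fun ha hb h => by rw [ha h, hb h, add_zero]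
           zero_mem' := fun _ => rfl
           neg_mem' := fun ha h => by rw [ha h, neg_zero] }
  one_mem h := absurd rfl h
  mul_mem {v w a b} ha hb h := by
    by_cases hv : v = 0
    · rw [hb fun hw => h (by rw [hv, hw, add_zero]), mul_zero]
    · rw [ha hv, zero_mul]

theorem mem_triv {w : ℤ} {a : B} : a ∈ (triv B).G w ↔ (w ≠ 0 → a = 0) := Iff.rfl

/-- polynomials over a graded ring -/
def poly (𝒢 : Grd B) (wt : τ → ℤ) : Grd (MvPolynomial τ B) where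
  G w := { carrier := {q | ∀ J, coeff J q ∈ 𝒢.G (w - Finsupp.weight wt J)}
           add_mem' := fun ha hb J => by rw [coeff_add]; exact add_mem (ha J) (hb J)
           zero_mem' := fun J => by rw [coeff_zero]; exact zero_mem _
           neg_mem' := fun ha J => by rw [coeff_neg]; exact neg_mem (ha J) }
  one_mem J := by
    classical
    rw [coeff_one]
    split_ifs with h
    · rw [← h, map_zero, sub_zero]
      exact 𝒢.one_mem
    · exact zero_mem _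
  mul_mem {v w a b} ha hb J := by
    classical
    rw [coeff_mul]
    refine sum_mem fun x hx => 𝒢.cast (𝒢.mul_mem (ha x.1) (hb x.2)) ?_
    rw [← Finset.HasAntidiagonal.mem_antidiagonal.1 hx, map_add]
    ring

theorem mem_poly {𝒢 : Grd B} {wt : τ → ℤ} {w : ℤ} {q : MvPolynomial τ B} :
    q ∈ (𝒢.poly wt).G w ↔ ∀ J, coeff J q ∈ 𝒢.G (w - Finsupp.weight wt J) := Iff.rfl

theorem monomial_mem {𝒢 : Grd B} (wt : τ → ℤ) {w : ℤ} {b : B} (J : τ →₀ ℕ) (h : b ∈ 𝒢.G w) :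
    monomial J b ∈ (𝒢.poly wt).G (w + Finsupp.weight wt J) := by
  classical
  intro L
  rw [coeff_monomial]
  split_ifs with e
  · rw [e, add_sub_cancel_right]
    exact h
  · exact zero_mem _

theorem C_mem {𝒢 : Grd B} (wt : τ → ℤ) {w : ℤ} {b : B} (h : b ∈ 𝒢.G w) :
    C b ∈ (𝒢.poly wt).G w := by
  simpa using monomial_mem wt 0 h

theorem X_mem (𝒢 : Grd B) (wt : τ → ℤ) (s : τ) : X s ∈ (𝒢.poly wt).G (wt s) := by
  have h := monomial_mem wt (Finsupp.single s 1) 𝒢.one_mem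
  rwa [zero_add, Finsupp.weight_single, one_smul] at h

theorem isWH_iff {wt : τ → ℤ} {w : ℤ} {q : MvPolynomial τ B} :
    IsWeightedHomogeneous wt q w ↔ q ∈ ((triv B).poly wt).G w := by
  refine ⟨fun h J hJ => ?_, fun h J hJ => ?_⟩
  · by_contra h0
    exact hJ (by rw [h h0, sub_self])
  · by_contra h0
    exact hJ (h J fun e => h0 (sub_eq_zero.1 e).symm)

/-- weight preserving ring homomorphisms -/
def Map (𝒢 : Grd B) (𝒢' : Grd B') (φ : B →+* B') : Prop := ∀ w a, a ∈ 𝒢.G w → φ a ∈ 𝒢'.G w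

theorem Map.id (𝒢 : Grd B) : 𝒢.Map 𝒢 (RingHom.id B) := fun _ _ h => h

theorem Map.comp {𝒢 : Grd B} {𝒢' : Grd B'} {𝒢'' : Grd B''} {φ : B →+* B'} {ψ : B' →+* B''}
    (h' : 𝒢'.Map 𝒢'' ψ) (h : 𝒢.Map 𝒢' φ) : 𝒢.Map 𝒢'' (ψ.comp φ) :=
  fun w a ha => h' w _ (h w a ha)

theorem map_C (𝒢 : Grd B) (wt : τ → ℤ) : 𝒢.Map (𝒢.poly wt) C := fun _ _ h => C_mem wt h

theorem map_constantCoeff (𝒢 : Grd B) (wt : τ → ℤ) : (𝒢.poly wt).Map 𝒢 constantCoeff :=
  fun w a h => by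
    have h1 := h 0
    rwa [map_zero, sub_zero] at h1

theorem Map.eval₂ {𝒢 : Grd B} {𝒢' : Grd B'} {φ : B →+* B'} (h : 𝒢.Map 𝒢' φ) {wt : τ → ℤ}
    {t : τ → B'} (ht : ∀ s, t s ∈ 𝒢'.G (wt s)) : (𝒢.poly wt).Map 𝒢' (eval₂Hom φ t) := by
  intro w q hq
  rw [q.as_sum, map_sum]
  refine sum_mem fun J _ => ?_
  rw [eval₂Hom_monomial]
  refine 𝒢'.cast (𝒢'.mul_mem (h _ _ (hq J))
    (𝒢'.prod_mem J.support fun s _ => 𝒢'.pow_mem (ht s) (J s))) ?_
  rw [Finsupp.weight_apply, Finsupp.sum]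
  ring

theorem Map.map {𝒢 : Grd B} {𝒢' : Grd B'} {φ : B →+* B'} (h : 𝒢.Map 𝒢' φ) (wt : τ → ℤ) :
    (𝒢.poly wt).Map (𝒢'.poly wt) (MvPolynomial.map φ) := fun w q hq J => by
  rw [coeff_map]
  exact h _ _ (hq J)

theorem map_of_zero {𝒢' : Grd B'} {φ : B →+* B'} (h : ∀ a, φ a ∈ 𝒢'.G 0) :
    (triv B).Map 𝒢' φ := fun w a ha => by
  by_cases hw : w = 0
  · rw [hw]
    exact h a
  · rw [ha hw, map_zero]
    exact zero_mem _

theorem map_triv (φ : B →+* B') : (triv B).Map (triv B') φ := map_of_zero fun _ h => absurd rfl h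

theorem map_int (𝒢 : Grd B) : (triv ℤ).Map 𝒢 (Int.castRingHom B) := map_of_zero 𝒢.intCast_mem

theorem map_zmod {m : ℕ} (𝒢 : Grd B) (φ : ZMod m →+* B) : (triv (ZMod m)).Map 𝒢 φ :=
  map_of_zero fun a => by
    obtain ⟨n, rfl⟩ := ZMod.intCast_surjective a
    rw [map_intCast]
    exact 𝒢.intCast_mem n

/-- no negative weights -/
def NonNeg (𝒢 : Grd B) : Prop := ∀ w a, a ∈ 𝒢.G w → w < 0 → a = 0

theorem nonNeg_triv : (triv B).NonNeg := fun _ _ h hw => h hw.ne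

theorem NonNeg.poly {𝒢 : Grd B} (h : 𝒢.NonNeg) {wt : τ → ℤ} (hw : ∀ s, 0 ≤ wt s) :
    (𝒢.poly wt).NonNeg := fun w q hq h0 => by
  ext J
  refine h _ _ (hq J) ?_
  have : 0 ≤ Finsupp.weight wt J := by
    rw [Finsupp.weight_apply, Finsupp.sum]
    exact Finset.sum_nonneg fun s _ => nsmul_nonneg (hw s) _
  omega

theorem NonNeg.le {𝒢 : Grd B} (h : 𝒢.NonNeg) {wt : τ → ℤ} {w : ℤ} {q : MvPolynomial τ B}
    (hq : q ∈ (𝒢.poly wt).G w) {J : τ →₀ ℕ} (hJ : coeff J q ≠ 0) : Finsupp.weight wt J ≤ w := by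
  by_contra h0
  exact hJ (h _ _ (hq J) (by omega))

end Grd

section Laurent

open LaurentPolynomial Vale.Agent.P251.F

variable {τ R B : Type} [CommRing R] [CommRing B]

theorem eval₂Hom_scale_monomial (f : R →+* B) (u : Bˣ) (wt : τ → ℤ) (t : τ → B) (J : τ →₀ ℕ)
    (a : R) : eval₂Hom f (fun s => ((u ^ wt s : Bˣ) : B) * t s) (monomial J a) =
      ((u ^ Finsupp.weight wt J : Bˣ) : B) * eval₂Hom f t (monomial J a) := by
  rw [eval₂Hom_monomial, eval₂Hom_monomial, Vale.Agent.P257.H93.zpow_weight, mul_left_comm,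
    Finsupp.prod, Finsupp.prod, Finsupp.prod, Units.coe_prod, ← Finset.prod_mul_distrib]
  congr 1
  exact Finset.prod_congr rfl fun s _ => by rw [mul_pow, Units.val_pow_eq_pow_val]

theorem eval₂Hom_scale {wt : τ → ℤ} {w : ℤ} {q : MvPolynomial τ R}
    (hq : IsWeightedHomogeneous wt q w) (f : R →+* B) (u : Bˣ) (t : τ → B) :
    eval₂Hom f (fun s => ((u ^ wt s : Bˣ) : B) * t s) q = ((u ^ w : Bˣ) : B) * eval₂Hom f t q := by
  rw [q.as_sum, map_sum, map_sum, Finset.mul_sum]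
  refine Finset.sum_congr rfl fun J hJ => ?_
  rw [eval₂Hom_scale_monomial, hq (mem_support_iff.1 hJ)]

/-- homogeneity is detected by the generic rescaling -/
theorem isWH_of_scale {wt : τ → ℤ} {w : ℤ} {q : MvPolynomial τ R}
    (h : eval₂Hom ((LaurentPolynomial.C : MvPolynomial τ R →+* _).comp MvPolynomial.C)
      (fun s => ((unitT (MvPolynomial τ R) ^ wt s : _ˣ) : (MvPolynomial τ R)[T;T⁻¹]) *
        LaurentPolynomial.C (X s)) q =
      ((unitT (MvPolynomial τ R) ^ w : _ˣ) : (MvPolynomial τ R)[T;T⁻¹]) * LaurentPolynomial.C q) :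
    IsWeightedHomogeneous wt q w := by
  classical
  intro J hJ
  have h0 : ∀ q : MvPolynomial τ R,
      eval₂Hom ((LaurentPolynomial.C : MvPolynomial τ R →+* _).comp MvPolynomial.C)
        (fun s => (LaurentPolynomial.C (X s) : (MvPolynomial τ R)[T;T⁻¹])) q =
        LaurentPolynomial.C q := fun q => by
    have e : eval₂Hom ((LaurentPolynomial.C : MvPolynomial τ R →+* _).comp MvPolynomial.C)
        (fun s => (LaurentPolynomial.C (X s) : (MvPolynomial τ R)[T;T⁻¹])) = LaurentPolynomial.C :=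
      MvPolynomial.ringHom_ext (fun a => by simp) fun i => by simp
    rw [e]
  conv_lhs at h => rw [q.as_sum, map_sum]
  rw [Finset.sum_congr rfl fun J _ => eval₂Hom_scale_monomial _ _ _ _ J _] at h
  simp only [h0, unitT_zpow] at h
  have h1 := congrArg (fun f : (MvPolynomial τ R)[T;T⁻¹] =>
    MvPolynomial.coeff J (f.coeff (Finsupp.weight wt J))) h
  simp only [AddMonoidAlgebra.coeff_sum, Finsupp.finsetSum_apply, MvPolynomial.coeff_sum,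
    mul_comm (T _), coeff_C_mul_T] at h1
  rw [Finset.sum_eq_single J, if_pos rfl, coeff_monomial, if_pos rfl] at h1
  · by_contra hne
    rw [if_neg fun e => hne e.symm, MvPolynomial.coeff_zero] at h1
    exact hJ h1
  · intro L _ hL
    split_ifs
    · rw [coeff_monomial, if_neg hL]
    · rw [MvPolynomial.coeff_zero]
  · intro h2
    exact absurd (mem_support_iff.2 hJ) h2

end Laurent

variable (p : ℕ) [hp : Fact p.Prime] {k : Type} [CommRing k] {B B' : Type} [CommRing B]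
  [CommRing B']

theorem unit_wz (u : Bˣ) (i : ℕ) : ((u ^ wz p i : Bˣ) : B) = (u : B) ^ (p ^ (i + 1) - 1) :=
  Vale.Agent.P257.H93.unit_pow_eq u (i + 1)

theorem wz_pos (i : ℕ) : 0 < wz p i := by
  have h : (1 : ℤ) < (p : ℤ) ^ (i + 1) :=
    one_lt_pow₀ (by exact_mod_cast hp.out.one_lt) (Nat.succ_ne_zero i)
  rw [wz]
  omega

theorem wz_nonneg (i : ℕ) : 0 ≤ wz p i := (wz_pos p i).le

theorem mz_nonneg (J : ℕ →₀ ℕ) : 0 ≤ mz p J := by
  rw [mz, Finsupp.weight_apply, Finsupp.sum]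
  exact Finset.sum_nonneg fun s _ => nsmul_nonneg (wz_nonneg p s) _

omit hp in
theorem mz_zero : mz p 0 = 0 := map_zero _

theorem mz_eq_zero {J : ℕ →₀ ℕ} (h : mz p J = 0) : J = 0 := by
  rw [mz, Finsupp.weight_apply, Finsupp.sum, Finset.sum_eq_zero_iff_of_nonneg
    fun s _ => nsmul_nonneg (wz_nonneg p s) _] at h
  ext s
  by_contra h0
  have h1 := h s (Finsupp.mem_support_iff.2 h0)
  rw [nsmul_eq_mul, mul_eq_zero] at h1
  rcases h1 with h1 | h1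
  · exact h0 (by exact_mod_cast h1)
  · exact (wz_pos p s).ne' h1

theorem eta_scale' (u : Bˣ) (v t : ℕ → B) (i : ℕ) :
    eta p (fun i => ((u ^ wz p i : Bˣ) : B) * v i) (fun i => ((u ^ wz p i : Bˣ) : B) * t i) i =
      ((u ^ wz p i : Bˣ) : B) * eta p v t i := by
  simp only [unit_wz, eta_scale]

theorem del_scale' (u : Bˣ) (v t t' : ℕ → B) (i : ℕ) :
    del p (fun i => ((u ^ wz p i : Bˣ) : B) * v i) (fun i => ((u ^ wz p i : Bˣ) : B) * t i)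
      (fun i => ((u ^ wz p i : Bˣ) : B) * t' i) i = ((u ^ wz p i : Bˣ) : B) * del p v t t' i := by
  simp only [unit_wz, del_scale]

theorem ev2_eq (φ : MvPolynomial (ℕ ⊕ ℕ) ℤ →+* B) :
    ev2 (fun i => φ (X (Sum.inl i))) (fun i => φ (X (Sum.inr i))) = φ :=
  MvPolynomial.ringHom_ext (fun a => by simp) fun i => by rcases i with i | i <;> simp

theorem ev3_eq (φ : MvPolynomial ((ℕ ⊕ ℕ) ⊕ ℕ) ℤ →+* B) :
    ev3 (fun i => φ (X (Sum.inl (Sum.inl i)))) (fun i => φ (X (Sum.inl (Sum.inr i))))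
      (fun i => φ (X (Sum.inr i))) = φ :=
  MvPolynomial.ringHom_ext (fun a => by simp) fun i => by rcases i with (i | i) | i <;> simp

theorem isWH_etaU (i : ℕ) :
    IsWeightedHomogeneous (Sum.elim (wz p) (wz p)) (etaU p i) (wz p i) := by
  apply isWH_of_scale
  rw [← ev2_eq (eval₂Hom _ _), ← ev2_eq LaurentPolynomial.C]
  simp only [eval₂Hom_X', Sum.elim_inl, Sum.elim_inr, ev2_inl, ev2_inr]
  exact eta_scale' p _ _ _ i

theorem isWH_delU (i : ℕ) :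
    IsWeightedHomogeneous (Sum.elim (Sum.elim (wz p) (wz p)) (wz p)) (delU p i) (wz p i) := by
  apply isWH_of_scale
  rw [← ev3_eq (eval₂Hom _ _), ← ev3_eq LaurentPolynomial.C]
  simp only [eval₂Hom_X', Sum.elim_inl, Sum.elim_inr, ev3_v, ev3_t, ev3_t']
  exact del_scale' p _ _ _ _ i

theorem eta_mem (𝒢 : Grd B) {v t : ℕ → B} (hv : ∀ i, v i ∈ 𝒢.G (wz p i))
    (ht : ∀ i, t i ∈ 𝒢.G (wz p i)) (i : ℕ) : eta p v t i ∈ 𝒢.G (wz p i) :=
  𝒢.map_int.eval₂ (wt := Sum.elim (wz p) (wz p)) (by rintro (i | i); exacts [hv i, ht i]) _ _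
    (Grd.isWH_iff.1 (isWH_etaU p i))

theorem del_mem (𝒢 : Grd B) {v t t' : ℕ → B} (hv : ∀ i, v i ∈ 𝒢.G (wz p i))
    (ht : ∀ i, t i ∈ 𝒢.G (wz p i)) (ht' : ∀ i, t' i ∈ 𝒢.G (wz p i)) (i : ℕ) :
    del p v t t' i ∈ 𝒢.G (wz p i) :=
  𝒢.map_int.eval₂ (wt := Sum.elim (Sum.elim (wz p) (wz p)) (wz p))
    (by rintro ((i | i) | i); exacts [hv i, ht i, ht' i]) _ _ (Grd.isWH_iff.1 (isWH_delU p i))

variable (k) in
/-- the grading of `Av k` (and of `PP p` for `k = ZMod p`) -/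
abbrev gA : Grd (Av k) := (Grd.triv k).poly (wz p)

variable (k) in
/-- the grading of `Gm k` -/
abbrev gG : Grd (Gm k) := (gA p k).poly (wz p)

omit hp in
theorem mem_gA {w : ℤ} {a : Av k} : a ∈ (gA p k).G w ↔ IsWeightedHomogeneous (wz p) a w :=
  Grd.isWH_iff.symm

theorem nonNeg_gA : (gA p k).NonNeg := Grd.nonNeg_triv.poly (wz_nonneg p)

theorem nonNeg_gG : (gG p k).NonNeg := (nonNeg_gA p).poly (wz_nonneg p)

omit hp in
theorem lin_mem_G {𝒢 : Grd B} {w e : ℤ} {q : MvPolynomial ℕ B} {ξ : (ℕ →₀ ℕ) → B}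
    (hq : q ∈ (𝒢.poly (wz p)).G w) (h : ∀ J, ξ J ∈ 𝒢.G (mz p J + e)) : lin ξ q ∈ 𝒢.G (w + e) := by
  rw [lin_apply]
  refine sum_mem fun J _ => 𝒢.cast (𝒢.mul_mem (hq J) (h J)) ?_
  rw [mz]
  ring

variable {𝒢 : Grd B} {x : Av k →+* B}

theorem map_tgt (hx : (gA p k).Map 𝒢 x) {t : ℕ → B} (ht : ∀ i, t i ∈ 𝒢.G (wz p i)) :
    (gA p k).Map 𝒢 (tgt p x t) :=
  (hx.comp (Grd.map_C _ _)).eval₂ (eta_mem p 𝒢 (fun i => hx _ _ (Grd.X_mem _ _ i)) ht)

theorem wt_etaB (hx : (gA p k).Map 𝒢 x) : (gA p k).Map (𝒢.poly (wz p)) (etaB p x) :=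
  map_tgt p ((Grd.map_C _ _).comp hx) (Grd.X_mem _ _)

theorem wt_RB (hx : (gA p k).Map 𝒢 x) :
    (𝒢.poly (wz p)).Map ((𝒢.poly (wz p)).poly (wz p)) (RB p x) :=
  ((Grd.map_C _ _).comp (Grd.map_C _ _)).eval₂ (del_mem p _
    (fun i => Grd.C_mem _ (Grd.C_mem _ (hx _ _ (Grd.X_mem _ _ i))))
    (fun i => Grd.C_mem _ (Grd.X_mem _ _ i)) (Grd.X_mem _ _))

theorem wt_etaR : (gA p k).Map (gG p k) (etaR p k) := by
  rw [← etaB_id]
  exact wt_etaB p (Grd.Map.id _)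

theorem wt_RG : (gG p k).Map ((gG p k).poly (wz p)) (RG p k) := by
  rw [← RB_id]
  exact wt_RB p (Grd.Map.id _)

theorem actB_mem (hx : (gA p k).Map 𝒢 x) {w e : ℤ} {ξ : (ℕ →₀ ℕ) → Av k}
    (hξ : ∀ J, ξ J ∈ (gA p k).G (mz p J + e)) {q : MvPolynomial ℕ B}
    (hq : q ∈ (𝒢.poly (wz p)).G w) : actB p x ξ q ∈ (𝒢.poly (wz p)).G (w + e) :=
  lin_mem_G p (wt_RB p hx _ _ hq) fun J => wt_etaB p hx _ _ (hξ J)

theorem actG_mem_G {w e : ℤ} {ξ : (ℕ →₀ ℕ) → Av k} (hξ : ∀ J, ξ J ∈ (gA p k).G (mz p J + e))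
    {γ : Gm k} (hγ : γ ∈ (gG p k).G w) : actG p ξ γ ∈ (gG p k).G (w + e) := by
  rw [← actB_id]
  exact actB_mem p (Grd.Map.id _) hξ hγ

theorem act0_mem_G {w e : ℤ} {ξ : (ℕ →₀ ℕ) → Av k} (hξ : ∀ J, ξ J ∈ (gA p k).G (mz p J + e))
    {b : Av k} (hb : b ∈ (gA p k).G w) : act0 p ξ b ∈ (gA p k).G (w + e) :=
  lin_mem_G p (wt_etaR p _ _ hb) hξ

theorem actB_congr (h𝒢 : 𝒢.NonNeg) (hx : (gA p k).Map 𝒢 x) {w : ℤ} {ξ ξ' : (ℕ →₀ ℕ) → Av k}
    (hξ : ∀ J, mz p J ≤ w → ξ J = ξ' J) {q : MvPolynomial ℕ B} (hq : q ∈ (𝒢.poly (wz p)).G w) :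
    actB p x ξ q = actB p x ξ' q :=
  lin_congr fun J hJ => by
    rw [hξ J ((h𝒢.poly (wz_nonneg p)).le (wt_RB p hx _ _ hq) hJ)]

theorem le_of_coeff_etaR {w : ℤ} {b : Av k} (hb : b ∈ (gA p k).G w) {J : ℕ →₀ ℕ}
    (hJ : coeff J (etaR p k b) ≠ 0) : mz p J ≤ w := (nonNeg_gA p).le (wt_etaR p _ _ hb) hJ

theorem le_of_coeff_RG {w : ℤ} {γ : Gm k} (hγ : γ ∈ (gG p k).G w) {J : ℕ →₀ ℕ}
    (hJ : coeff J (RG p k γ) ≠ 0) : mz p J ≤ w := (nonNeg_gG p).le (wt_RG p _ _ hγ) hJ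

variable {ι : Type} (Γ : Gens ι)

/-- homogeneous elements of `ι → B` -/
def HomG (𝒢 : Grd B) (s : ℕ) (w : ℤ) : AddSubgroup (ι → B) where
  carrier := {y | ∀ g, y g ∈ 𝒢.G (w - Γ.wt g) ∧ (Γ.deg g ≠ s → y g = 0)}
  add_mem' ha hb g := ⟨add_mem (ha g).1 (hb g).1, fun h => by
    rw [Pi.add_apply, (ha g).2 h, (hb g).2 h, add_zero]⟩
  zero_mem' _ := ⟨zero_mem _, fun _ => rfl⟩
  neg_mem' ha g := ⟨neg_mem (ha g).1, fun h => by rw [Pi.neg_apply, (ha g).2 h, neg_zero]⟩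

omit hp in
theorem mem_HomG {s : ℕ} {w : ℤ} {y : ι → B} :
    y ∈ HomG Γ 𝒢 s w ↔ ∀ g, y g ∈ 𝒢.G (w - Γ.wt g) ∧ (Γ.deg g ≠ s → y g = 0) := Iff.rfl

omit hp in
theorem hom_iff {s : ℕ} {w : ℤ} {c : ι → Av k} : Hom p Γ s w c ↔ c ∈ HomG Γ (gA p k) s w :=
  forall_congr' fun _ => and_congr_left' Grd.isWH_iff

omit hp in
theorem HomG.map {𝒢' : Grd B'} {φ : B →+* B'} (hφ : 𝒢.Map 𝒢' φ) {s : ℕ} {w : ℤ} {y : ι → B}
    (hy : y ∈ HomG Γ 𝒢 s w) : (fun g => φ (y g)) ∈ HomG Γ 𝒢' s w := fun g =>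
  ⟨hφ _ _ (hy g).1, fun h => by beta_reduce; rw [(hy g).2 h, map_zero]⟩

omit hp in
theorem HomG.smul {s : ℕ} {v w : ℤ} {b : B} {y : ι → B} (hb : b ∈ 𝒢.G v)
    (hy : y ∈ HomG Γ 𝒢 s w) : b • y ∈ HomG Γ 𝒢 s (v + w) := fun g =>
  ⟨𝒢.cast (𝒢.mul_mem hb (hy g).1) (by ring), fun h => by
    rw [Pi.smul_apply, (hy g).2 h, smul_zero]⟩

omit hp in
theorem single_mem [DecidableEq ι] (g : ι) {w : ℤ} {b : B} (hb : b ∈ 𝒢.G w) :
    (Pi.single g b : ι → B) ∈ HomG Γ 𝒢 (Γ.deg g) (w + Γ.wt g) := fun g' => by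
  by_cases h : g' = g
  · subst h
    rw [Pi.single_eq_same, add_sub_cancel_right]
    exact ⟨hb, fun h => absurd rfl h⟩
  · rw [Pi.single_eq_of_ne h]
    exact ⟨zero_mem _, fun _ => rfl⟩

omit hp in
theorem bv_mem [DecidableEq ι] (𝒢 : Grd B) (g : ι) (J : ℕ →₀ ℕ) :
    (bv g J : ι → MvPolynomial ℕ B) ∈ HomG Γ (𝒢.poly (wz p)) (Γ.deg g) (mz p J + Γ.wt g) := by
  have h := Grd.monomial_mem (wz p) J 𝒢.one_mem
  rw [zero_add] at h
  exact single_mem Γ g h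

variable [Fintype ι] {δ δ' : Mat ι (Av k)}

omit hp [Fintype ι] in
theorem HomD.mem (hδ : HomD p Γ δ) (g g' : ι) (J : ℕ →₀ ℕ) :
    δ g g' J ∈ (gA p k).G (mz p J + ((Γ.wt g : ℤ) - Γ.wt g')) := by
  rw [← add_sub_assoc]
  exact (mem_gA p).2 (hδ.wt g g' J)

/-- the differential preserves the weight and raises the degree -/
theorem XB_mem (hδ : HomD p Γ δ) (hx : (gA p k).Map 𝒢 x) {s : ℕ} {w : ℤ}
    {y : ι → MvPolynomial ℕ B} (hy : y ∈ HomG Γ (𝒢.poly (wz p)) s w) :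
    XB p x δ y ∈ HomG Γ (𝒢.poly (wz p)) (s + 1) w := fun g' => by
  rw [XB_apply]
  refine ⟨sum_mem fun g _ => Grd.cast _ (actB_mem p hx (hδ.mem p Γ g g') (hy g).1) (by ring),
    fun h => Finset.sum_eq_zero fun g _ => ?_⟩
  by_cases hg : Γ.deg g = s
  · rw [show δ g g' = fun _ => 0 from funext (hδ.deg g g' · (by rwa [hg])), actB_zero_left]
  · rw [(hy g).2 hg, actB_zero]

theorem XG_mem (hδ : HomD p Γ δ) {s : ℕ} {w : ℤ} {y : ι → Gm k} (hy : y ∈ HomG Γ (gG p k) s w) :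
    XG p δ y ∈ HomG Γ (gG p k) (s + 1) w := by
  rw [← XB_id]
  exact XB_mem p Γ hδ (Grd.Map.id _) hy

theorem Hom.X0 (hδ : HomD p Γ δ) {s : ℕ} {w : ℤ} {c : ι → Av k} (hc : Hom p Γ s w c) :
    Hom p Γ (s + 1) w (X0 p δ c) := by
  have h := XG_mem p Γ hδ (HomG.map Γ (wt_etaR p) ((hom_iff p Γ).1 hc))
  rw [XG_etaR] at h
  have h1 := HomG.map Γ (Grd.map_constantCoeff _ _) h
  simp only [constantCoeff_etaR] at h1
  exact (hom_iff p Γ).2 h1

omit hp in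
theorem wt_red (red : k →+* B) : (gA p k).Map (Grd.triv B) (red.comp constantCoeff) :=
  (Grd.map_triv red).comp (Grd.map_constantCoeff _ _)

theorem Hom.XP (hδ : HomD p Γ δ) (red : k →+* ZMod p) {s : ℕ} {w : ℤ} {y : ι → PP p}
    (hy : Hom p Γ s w y) : Hom p Γ (s + 1) w (XP p (bar p red δ) y) := by
  have h := XB_mem p Γ hδ (wt_red p red) ((hom_iff p Γ).1 hy)
  rw [XB_P p fun i => by simp] at h
  exact (hom_iff p Γ).2 h

/-- only the entries of degree `s` and weight `≤ w` matter -/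
theorem XB_congr (h𝒢 : 𝒢.NonNeg) (hx : (gA p k).Map 𝒢 x) {s : ℕ} {w : ℤ}
    (h : ∀ g g' J, Γ.deg g = s → mz p J + Γ.wt g ≤ w → δ g g' J = δ' g g' J)
    {y : ι → MvPolynomial ℕ B} (hy : y ∈ HomG Γ (𝒢.poly (wz p)) s w) :
    XB p x δ y = XB p x δ' y := by
  funext g'
  rw [XB_apply, XB_apply]
  refine Finset.sum_congr rfl fun g _ => ?_
  by_cases hg : Γ.deg g = s
  · exact actB_congr p h𝒢 hx (fun J hJ => h g g' J hg (by omega)) (hy g).1
  · rw [(hy g).2 hg, actB_zero, actB_zero]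

theorem XB_zero_left (x : Av k →+* B) (y : ι → MvPolynomial ℕ B) :
    XB p x (fun _ _ _ => 0) y = 0 := by
  funext g'
  simp only [XB_apply, actB_zero_left, Finset.sum_const_zero, Pi.zero_apply]

theorem XB_XB_zero (h𝒢 : 𝒢.NonNeg) (hx : (gA p k).Map 𝒢 x) {N : ℤ} (hδ : SqZero p Γ δ N) {s : ℕ}
    {w : ℤ} (hw : w ≤ N) {y : ι → MvPolynomial ℕ B} (hy : y ∈ HomG Γ (𝒢.poly (wz p)) s w) :
    XB p x δ (XB p x δ y) = 0 := by
  rw [XB_XB, XB_congr p Γ h𝒢 hx (δ' := fun _ _ _ => 0) (fun g g' J _ h => hδ g g' J (h.trans hw)) hy,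
    XB_zero_left]

theorem XG_XG_zero {N : ℤ} (hδ : SqZero p Γ δ N) {s : ℕ} {w : ℤ} (hw : w ≤ N) {y : ι → Gm k}
    (hy : y ∈ HomG Γ (gG p k) s w) : XG p δ (XG p δ y) = 0 := by
  rw [← XB_id, ← XB_id]
  exact XB_XB_zero p Γ (nonNeg_gA p) (Grd.Map.id _) hδ hw hy

theorem X0_congr {s : ℕ} {w : ℤ}
    (h : ∀ g g' J, Γ.deg g = s → mz p J + Γ.wt g ≤ w → δ g g' J = δ' g g' J)
    {c : ι → Av k} (hc : Hom p Γ s w c) : X0 p δ c = X0 p δ' c := by
  have h1 := XB_congr p Γ (nonNeg_gA p) (Grd.Map.id _) h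
    (HomG.map Γ (wt_etaR p) ((hom_iff p Γ).1 hc))
  rw [XB_id, XB_id, XG_etaR, XG_etaR] at h1
  funext g
  simpa only [constantCoeff_etaR] using congrArg constantCoeff (congrFun h1 g)

theorem X0_X0_zero {N : ℤ} (hδ : SqZero p Γ δ N) {s : ℕ} {w : ℤ} (hw : w ≤ N) {c : ι → Av k}
    (hc : Hom p Γ s w c) : X0 p δ (X0 p δ c) = 0 := by
  have h1 := XG_XG_zero p Γ hδ hw (HomG.map Γ (wt_etaR p) ((hom_iff p Γ).1 hc))
  rw [XG_etaR, XG_etaR] at h1
  funext g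
  simpa only [constantCoeff_etaR, Pi.zero_apply, map_zero] using
    congrArg constantCoeff (congrFun h1 g)

/-- the difference of two differentials which agree modulo `𝔞` -/
theorem X0_sub_mem {𝔞 : Ideal (Av k)} {s : ℕ} {w : ℤ}
    (h : ∀ g g' J, Γ.deg g = s → mz p J + Γ.wt g ≤ w → δ g g' J - δ' g g' J ∈ 𝔞)
    {c : ι → Av k} (hc : Hom p Γ s w c) (g' : ι) : X0 p δ c g' - X0 p δ' c g' ∈ 𝔞 := by
  rw [X0, X0, ← Finset.sum_sub_distrib]
  refine Ideal.sum_mem _ fun g _ => ?_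
  by_cases hg : Γ.deg g = s
  · rw [act0, act0, ← lin_sub]
    refine lin_mem fun J hJ => h g g' J hg ?_
    have := le_of_coeff_etaR p ((mem_gA p).2 (hc g).1) hJ
    omega
  · rw [(hc g).2 hg, act0_zero, act0_zero, sub_self]
    exact zero_mem _

end Vale.Agent.P236A
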